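import Vale.Agent.P181.SEP.Defs
import Mathlib.Data.Fin.Tuple.Sort

set_option autoImplicit false

/-!
# P181, separating columns: removing the factors common to the slots of one class

`claimA` with `κ ∈ {0, 1}` after sorting the slots by `κ`, then induction on the number of factors.
-/

namespace Vale.Agent.P181.SEP.H869

open Vale.Agent.P181 Finset

variable {A : Type} [CommRing A] [Algebra ℂ A]

/-- One common factor of the slots with `κ i = 1`. -/
lemma one_class (L : Submodule ℂ A) {a : ℕ} (F : MultilinearMap ℂ (fun _ : Fin a => A) ℂ)
    (κ e : Fin a → ℕ) (hκ : ∀ j, κ j ≠ 0 → ∑ i, κ i ≤ e j + κ j)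
    (h : ∀ ξ ∈ L, ∀ P : Fin a → A, (∀ i, P i ∈ L ^ e i) → F (fun i => ξ ^ κ i * P i) = 0) :
    ∀ P : Fin a → A, (∀ i, P i ∈ L ^ (e i + κ i)) → F P = 0 := by
  intro P hP
  set τ : Equiv.Perm (Fin a) := Tuple.sort κ with hτ
  have hmono : Monotone (κ ∘ τ) := Tuple.monotone_sort κ
  have h1 := claimA L (F.domDomCongr τ.symm) (fun i => e (τ i) + κ (τ i)) (fun i => κ (τ i))
    (fun j => ?_) (fun ξ hξ Q hQ => ?_) (fun i => P (τ i)) (fun i => hP (τ i))
  · rw [MultilinearMap.domDomCongr_apply] at h1
    rw [← h1]
    congr 1
    funext i
    rw [Equiv.apply_symm_apply]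
  · by_cases hj : κ (τ j) = 0
    · have h2 : ∑ i ∈ Finset.Iic j, κ (τ i) = 0 := by
        apply Finset.sum_eq_zero
        intro i hi
        have h3 : κ (τ i) ≤ κ (τ j) := hmono (Finset.mem_Iic.1 hi)
        omega
      rw [h2]
      exact Nat.zero_le _
    · refine le_trans ?_ (hκ (τ j) hj)
      rw [← Equiv.sum_comp τ κ]
      exact Finset.sum_le_sum_of_subset (Finset.subset_univ _)
  · rw [MultilinearMap.domDomCongr_apply]
    have h4 := h ξ hξ (fun i => Q (τ.symm i)) (fun i => by
      have h5 := hQ (τ.symm i)
      simp only [Equiv.apply_symm_apply, Nat.add_sub_cancel] at h5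
      exact h5)
    rw [← h4]
    congr 1
    funext i
    rw [Equiv.apply_symm_apply]

/-- **(T3)** -/
theorem peel : PeelStmt := by
  intro A _ _ L a d n S _ s v hs
  induction n with
  | zero =>
    intro F hF P hP
    have h1 := hF (fun t => t.elim0) (fun t => t.elim0) P (fun i => by
      have h2 := hP i
      simpa using h2)
    rw [← h1]
    congr 1
    funext i
    simp
  | succ n ih =>
    intro F hF P hP
    refine one_class L F (fun i => if v 0 = s i then 1 else 0)
      (fun i => d + (univ.filter (fun t : Fin n => v t.succ = s i)).card) ?_ ?_ P ?_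
    · intro j hj
      have hj' : v 0 = s j := by
        by_contra hne
        exact hj (if_neg hne)
      rw [Finset.sum_boole]
      simp only [if_pos hj', Nat.cast_id]
      have h1 := hs (v 0)
      have h2 : (univ.filter (fun i => v 0 = s i)).card = (univ.filter (fun i => s i = v 0)).card := by
        congr 1
        ext i
        simp only [Finset.mem_filter, Finset.mem_univ, true_and]
        exact eq_comm
      rw [h2]
      omega
    · intro ξ hξ Q hQ
      have h3 := ih (fun t => v t.succ) (mulArg F (fun i => if v 0 = s i then ξ else 1)) ?_ Q hQ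
      · rw [mulArg_apply] at h3
        rw [← h3]
        congr 1
        funext i
        split_ifs <;> simp
      · intro ζ hζ R hR
        rw [mulArg_apply]
        have h4 := hF (Fin.cons ξ ζ) (fun t => by
          refine Fin.cases ?_ (fun t => ?_) t
          · exact hξ
          · exact hζ t) R hR
        rw [← h4]
        congr 1
        funext i
        rw [Fin.prod_univ_succ]
        simp only [Fin.cons_zero, Fin.cons_succ]
        rw [mul_assoc]
    · intro i
      have h5 := hP i
      have h6 : (univ.filter (fun t : Fin (n + 1) => v t = s i)).card =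
          (univ.filter (fun t : Fin n => v t.succ = s i)).card + (if v 0 = s i then 1 else 0) := by
        rw [Fin.card_filter_univ_succ]
        split_ifs <;> simp
      rw [h6, ← add_assoc] at h5
      exact h5

end Vale.Agent.P181.SEP.H869
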