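import Vale.Agent.P181.SEP.Main
import Vale.Agent.P181.SEP.H605.Fin
import Vale.Agent.P181.SEP.H964.Sign
import Vale.Agent.P181.SEP.H869.Peel

set_option autoImplicit false

/-!
# P181, separating columns, unconditionally
-/

namespace Vale.Agent.P181.SEP.H869

open Vale.Agent.P181

/-- The result for forms, no hypothesis left. -/
theorem sepAll : SepStmt := sepForm H964.sign peel

/-- **Separating columns**: no hypothesis left. -/
theorem finAll : FinStmt := H605.fin sepAll

end Vale.Agent.P181.SEP.H869
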