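import Vale.Agent.P181.SEP.Defs

set_option autoImplicit false

/-!
# P181, separating columns: the survivors
-/

namespace Vale.Agent.P181.SEP.H869

open Vale.Agent.P181 Vale.Agent.P181.H270 Finset

/-- A shift by `0` or `1` on the cyclic group which is injective is constant. -/
lemma shift_const {q : ℕ} (B : Fin (q + 1) → Bool)
    (h : ∀ i j : Fin (q + 1), i + (if B i = true then 1 else 0) = j + (if B j = true then 1 else 0) →
      i = j) (i j : Fin (q + 1)) : B i = B j := by
  have step : ∀ j, B j = true → B (j + 1) = true := by
    intro j hj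
    by_contra hne
    have h2 : j + 1 = j := by
      apply h
      rw [if_neg hne, if_pos hj, add_zero]
    rw [h2] at hne
    exact hne hj
  have up : ∀ i : Fin (q + 1), B 0 = true → B i = true := by
    intro i h0
    induction i using Fin.induction with
    | zero => exact h0
    | succ i ih =>
      have h1 := step _ ih
      rwa [Fin.coeSucc_eq_succ] at h1
  have down : ∀ i : Fin (q + 1), B i = true → B 0 = true := by
    intro i
    induction i using Fin.reverseInduction with
    | last =>
      intro h1
      have h2 := step _ h1
      rwa [Fin.last_add_one] at h2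
    | cast i ih =>
      intro h1
      have h2 := step _ h1
      rw [Fin.coeSucc_eq_succ] at h2
      exact ih h2
  by_cases hi : B i = true
  · rw [hi, up j (down i hi)]
  · have hj : ¬ B j = true := fun hj => hi (up i (down j hj))
    simp only [Bool.not_eq_true] at hi hj
    rw [hi, hj]

variable {a k q r : ℕ}

/-- All kept particles are blocks. -/
lemma kept (hra : r ≤ a) (s : Fin a → Fin r → Bool) (hk : k + 1 ≤ r)
    (e : Equiv.Perm (Fin k ⊕ (Fin a × Fin (q + 1)))) (σ : Fin k → Equiv.Perm (Fin a))
    (hb : ∀ (t : Fin r) (u : Fin (q + 1)), Function.Bijective (fun p : Fin a =>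
      slot e σ (.inr (p, u - (if s p t = true then 1 else 0)), Fin.castLE hra t)))
    (p : Fin a) (j : Fin (q + 1)) : ∃ x, e (.inr (p, j)) = .inr x := by
  classical
  choose g hg using fun c : Fin r × Fin (q + 1) => (hb c.1 c.2).2 p
  set blk : Fin r × Fin (q + 1) → Fin k ⊕ (Fin a × Fin (q + 1)) := fun c =>
    .inr (g c, c.2 - (if s (g c) c.1 = true then 1 else 0)) with hblk
  have hg' : ∀ c, Sum.elim (fun i => (σ i).symm (Fin.castLE hra c.1)) (fun pj => pj.1)
      (e.symm (blk c)) = p := hg
  have hinj : ∀ c c', blk c = blk c' → c.1 = c'.1 → c = c' := by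
    intro c c' h1 h2
    have h3 := Sum.inr_injective h1
    have h4 : g c = g c' := congrArg Prod.fst h3
    have h5 : c.2 - (if s (g c) c.1 = true then 1 else 0) =
        c'.2 - (if s (g c') c'.1 = true then 1 else 0) := congrArg Prod.snd h3
    rw [h4, h2] at h5
    exact Prod.ext h2 (sub_left_injective h5)
  set J : Finset (Fin (q + 1)) := univ.filter (fun j => ∃ x, e (.inr (p, j)) = .inr x) with hJ
  let ψ : Fin r × Fin (q + 1) → Fin k ⊕ (Fin (q + 1) × Fin r) := fun c =>
    Sum.map id (fun x : Fin a × Fin (q + 1) => (x.2, c.1)) (e.symm (blk c))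
  have hcard : r * (q + 1) ≤ k + J.card * r := by
    have h1 : (univ : Finset (Fin r × Fin (q + 1))).card ≤
        ((univ : Finset (Fin k)).disjSum (J ×ˢ (univ : Finset (Fin r)))).card := by
      apply Finset.card_le_card_of_injOn ψ
      · intro c _
        have h2 := hg' c
        rcases h : e.symm (blk c) with i | ⟨p1, j1⟩
        · simp [ψ, h]
        · rw [h, Sum.elim_inr] at h2
          have h2' : p1 = p := h2
          subst h2'
          have h3 : e (.inr (p1, j1)) = blk c := by rw [← h, Equiv.apply_symm_apply]
          have h4 : j1 ∈ J := by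
            rw [hJ, Finset.mem_filter]
            exact ⟨Finset.mem_univ _, _, h3⟩
          simp [ψ, h, h4]
      · intro c _ c' _ hcc
        have h2 := hg' c
        have h2' := hg' c'
        simp only [ψ] at hcc
        rcases h : e.symm (blk c) with i | ⟨p1, j1⟩ <;>
          rcases h' : e.symm (blk c') with i' | ⟨p2, j2⟩
        · rw [h, h', Sum.map_inl, Sum.map_inl] at hcc
          have h3 : i = i' := Sum.inl_injective hcc
          subst h3
          rw [h, Sum.elim_inl] at h2
          rw [h', Sum.elim_inl] at h2'
          have h4 := (σ i).symm.injective (h2.trans h2'.symm)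
          exact hinj c c' (e.symm.injective (h.trans h'.symm)) (Fin.castLE_injective hra h4)
        · rw [h, h'] at hcc
          exact absurd hcc (by simp)
        · rw [h, h'] at hcc
          exact absurd hcc (by simp)
        · rw [h, h', Sum.map_inr, Sum.map_inr] at hcc
          have h3 := Sum.inr_injective hcc
          have h4 : j1 = j2 := congrArg Prod.fst h3
          have h5 : c.1 = c'.1 := congrArg Prod.snd h3
          rw [h, Sum.elim_inr] at h2
          rw [h', Sum.elim_inr] at h2'
          have h6 : p1 = p2 := h2.trans h2'.symm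
          rw [← h4, ← h6] at h'
          exact hinj c c' (e.symm.injective (h.trans h'.symm)) h5
    rw [Finset.card_disjSum, Finset.card_product, Finset.card_univ, Finset.card_univ,
      Finset.card_univ, Fintype.card_prod, Fintype.card_fin, Fintype.card_fin,
      Fintype.card_fin] at h1
    exact h1
  have hJc : q + 1 ≤ J.card := by
    by_contra hlt
    have h1 : J.card * r ≤ q * r := Nat.mul_le_mul_right _ (by omega)
    have h2 : r * (q + 1) = q * r + r := by ring
    omega
  have hJu : J = univ := by
    apply Finset.eq_univ_of_card
    have h1 := Finset.card_le_univ J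
    rw [Fintype.card_fin] at h1 ⊢
    omega
  have h7 : j ∈ J := by rw [hJu]; exact Finset.mem_univ j
  rw [hJ, Finset.mem_filter] at h7
  exact h7.2

/-- **(T1)** -/
theorem surv : SurvStmt := by
  intro a k q r hra s hk hs0 e σ hb
  choose f hf using fun x : Fin a × Fin (q + 1) => kept hra s hk e σ hb x.1 x.2
  have hfinj : Function.Injective f := by
    intro x y hxy
    have h1 : e (.inr (x.1, x.2)) = e (.inr (y.1, y.2)) := by rw [hf, hf, hxy]
    exact Sum.inr_injective (e.injective h1)
  have hfs : Function.Surjective f := Finite.surjective_of_injective hfinj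
  have hinl : ∀ i, ∃ i', e (.inl i) = .inl i' := by
    intro i
    rcases h : e (.inl i) with i' | x
    · exact ⟨i', rfl⟩
    · exfalso
      obtain ⟨y, hy⟩ := hfs x
      have h1 : e (.inl i) = e (.inr (y.1, y.2)) := by rw [h, hf, hy]
      exact absurd (e.injective h1) (by simp)
  have hslot : ∀ (x : Fin a × Fin (q + 1)) (t t' : Fin a),
      slot e σ (.inr x, t) = slot e σ (.inr x, t') := by
    intro x t t'
    show Sum.elim (fun i => (σ i).symm t) (fun pj => pj.1) (e.symm (.inr x)) =
      Sum.elim (fun i => (σ i).symm t') (fun pj => pj.1) (e.symm (.inr x))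
    rcases h : e.symm (.inr x) with i | y
    · exfalso
      obtain ⟨i', hi'⟩ := hinl i
      rw [← h, Equiv.apply_symm_apply] at hi'
      exact absurd hi' (by simp)
    · rfl
  have h0r : 0 < r := by omega
  set t0 : Fin r := ⟨0, h0r⟩ with ht0
  have hbij : ∀ j : Fin (q + 1), Function.Bijective (fun p : Fin a =>
      slot e σ (.inr (p, j), Fin.castLE hra t0)) := by
    intro j
    have h1 := hb t0 j
    have h2 : ∀ p, s p t0 = false := fun p => hs0 p t0 rfl
    simp only [h2, Bool.false_eq_true, if_false, sub_zero] at h1
    exact h1
  refine ⟨fun j => Equiv.ofBijective _ (hbij j), ?_, ?_, hinl⟩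
  · intro p j t
    rw [Equiv.ofBijective_apply]
    exact hslot _ _ _
  · have hX : ∀ (j : Fin (q + 1)) (g : Fin a) (t : Fin a), slot e σ (.inr (g, j), t) =
        (fun j => Equiv.ofBijective _ (hbij j)) j g := by
      intro j g t
      show _ = Equiv.ofBijective _ (hbij j) g
      rw [Equiv.ofBijective_apply]
      exact hslot _ _ _
    generalize hXX : (fun j => Equiv.ofBijective _ (hbij j)) = X at hX ⊢
    intro j p
    funext t
    set B : Fin (q + 1) → Bool := fun i => s ((X i).symm (X 0 p)) t with hB
    have h0 : B 0 = s p t := by
      rw [hB]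
      show s ((X 0).symm (X 0 p)) t = s p t
      rw [Equiv.symm_apply_apply]
    rw [← h0]
    refine shift_const B ?_ j 0
    intro i l hil
    have h1 := (hb t (i + (if B i = true then 1 else 0))).1
    have h2 : (X i).symm (X 0 p) = (X l).symm (X 0 p) := by
      apply h1
      show slot e σ (.inr ((X i).symm (X 0 p), i + (if B i = true then 1 else 0) -
        (if B i = true then 1 else 0)), _) = slot e σ (.inr ((X l).symm (X 0 p),
        i + (if B i = true then 1 else 0) - (if B l = true then 1 else 0)), _)
      rw [add_sub_cancel_right, hil, add_sub_cancel_right, hX, hX, Equiv.apply_symm_apply,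
        Equiv.apply_symm_apply]
    have h3 : B i = B l := by
      show s ((X i).symm (X 0 p)) t = s ((X l).symm (X 0 p)) t
      rw [h2]
    rw [h3] at hil
    exact add_left_injective _ hil

end Vale.Agent.P181.SEP.H869
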